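import Vale.Agent.P224.PO.CoreW4
import Vale.Agent.P224.PO.M15.Num
import Vale.Agent.P224.S15.ZeroD
import Vale.Agent.P224.S15.ZeroE
import Vale.Agent.P224.S15.Z15F
import Vale.Agent.P224.SO.One15Z
import Vale.Agent.P224.SO.Stab15F
import Vale.Agent.P224.SO.Stab15Ga
import Vale.Agent.P224.SO.Near15V
import Vale.Agent.P224.SO.NearS15p115c41
import Vale.Agent.P224.PO.R15.Main
import Vale.Agent.P224.PO.R15s.Law

/-!
The sharp volume bound in dimension fifteen, with the case of equality.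
-/

namespace Vale.Agent.P224.PO.M15

open MeasureTheory Set Filter Function Module Vale.Agent.P224 Vale.Agent.P224.UE
  Vale.Agent.P224.S15
open scoped Topology RealInnerProductSpace ENNReal ContDiff Manifold

set_option linter.unusedSectionVars false

lemma gam_pos : 0 < gamD := by linarith [gamD_bd.1]

lemma rho_pos : 0 < rhoD := by linarith [rhoD_bd.1]

lemma kap_nonneg : 0 ≤ kapD := by
  unfold kapD
  norm_num

lemma sq_r : √(56 : ℝ) ^ 2 = 56 := Real.sq_sqrt (by norm_num)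

lemma num1 : (((15 : ℕ) : ℝ) + 1) ^ 2 * gamD * (127 / 1000000) ≤ 99 / 500 * rhoD := by
  push_cast
  linarith [gamD_bd.2, rhoD_bd.1]

lemma num2 : ((((15 : ℕ) : ℝ) + 1) ^ 2 * (77 / 100) * gamD) ^ 2 * (127 / 1000000)
    ≤ (67 / 5 * rhoD) ^ 2 := by
  push_cast
  have h1 : (((15 : ℝ) + 1) ^ 2 * (77 / 100) * gamD) ^ 2
      ≤ (((15 : ℝ) + 1) ^ 2 * (77 / 100) * (52240 / 100000)) ^ 2 :=
    pow_le_pow_left₀ (by linarith [gam_pos]) (by linarith [gamD_bd.2]) 2
  have h2 : ((67 / 5 : ℝ) * (86861 / 1000000)) ^ 2 ≤ (67 / 5 * rhoD) ^ 2 :=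
    pow_le_pow_left₀ (by norm_num) (by linarith [rhoD_bd.1]) 2
  refine le_trans ?_ h2
  refine le_trans (mul_le_mul_of_nonneg_right h1 (by norm_num)) ?_
  norm_num

lemma num3 : (((15 : ℕ) : ℝ) + 1) ^ 2 * gamD * (208 / 1000000) ≤ 3210 / 10000 * rhoD := by
  push_cast
  linarith [gamD_bd.2, rhoD_bd.1]

section

variable {V W M : Type*} [NormedAddCommGroup V] [InnerProductSpace ℝ V] [FiniteDimensional ℝ V]
  [NormedAddCommGroup W] [InnerProductSpace ℝ W] [FiniteDimensional ℝ W]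
  [TopologicalSpace M] [ChartedSpace V M]
  [MeasurableSpace V] [BorelSpace V] [MeasurableSpace M] [BorelSpace M]
  [IsManifold 𝓘(ℝ, V) ∞ M] [CompactSpace M] [T2Space M] [ConnectedSpace M]
  [MeasurableSpace W] [BorelSpace W]

/-- **Dimension fifteen**: at most the Clifford volume forces equality and linearity. -/
theorem core (hV : finrank ℝ V = 15) (hW : finrank ℝ W = finrank ℝ V + 2)
    {F : M → W} (hF : SphImm V F) (hmin : ∀ x n, IsUnitNormal V F x n → meanCurv V F x n = 0)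
    (hng : ¬ ∃ a : W, a ≠ 0 ∧ ∀ x, ⟪F x, a⟫ = 0)
    (hle : (volM V F).real univ ≤ 359661568 / 170859375 * √(7 / 15) * sphereVol 15) :
    (volM V F).real univ = 359661568 / 170859375 * √(7 / 15) * sphereVol 15 ∧ Injective F ∧
      ∃ (N : M → W) (b : OrthonormalBasis (Fin (15 + 2)) ℝ W) (S : Finset (Fin (15 + 2))),
        ContMDiff 𝓘(ℝ, V) 𝓘(ℝ, W) ∞ N ∧ (∀ x, IsUnitNormal V F x (N x)) ∧ S.card = 9 ∧
        ∀ x, N x = ∑ i, ((if i ∈ S then √56 / 8 else -(1 / (√56 / 8))) * ⟪F x, b i⟫) • b i := by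
  have hfin : IsFiniteMeasure (volM V F) := isFiniteMeasure_volM hF
  have hne : Nonempty M := inferInstance
  have hΘ : 9997 / 10000 * (359661568 / 170859375 * √(7 / 15)) * sphereVol 15 ≤ (volM V F).real univ := by
    have h := R15.main hV hW hF hmin hng
    rw [least_eq] at h
    have h2 := (ENNReal.ofReal_le_iff_le_toReal (measure_ne_top _ _)).1 h
    have e : (volM V F).real univ = ((volM V F) univ).toReal := rfl
    rw [e]
    linarith
  have hr0 : (0 : ℝ) < √56 := by positivity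
  have ha2 : (√(56 : ℝ) / 8) ^ 2 = 7 / 8 := by
    rw [div_pow, sq_r]
    norm_num
  have hlr : ∀ Θ : ℝ, 9997 / 10000 * (359661568 / 170859375 * √(7 / 15)) ≤ Θ → 23 / 16 ≤ Θ := by
    intro Θ h
    linarith [a_ge]
  refine core_KW5s (m := 15) (h := 7) (C := 359661568 / 170859375 * √(7 / 15))
    (Θ1 := 9997 / 10000 * (359661568 / 170859375 * √(7 / 15)))
    (α := √56 / 8) (r := √56) (w := 7 / 8) (kr := √56 / 56) (w0 := 2)
    (T0 := 199 / 25) (k0 := -(659 / 100))
    (k1 := 113) (B := 224) (c := 42) (q := 14) (g1 := 17) (g' := 225 / 7)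
    (a2 := 121 / 128) (b2 := 7 / 4) (c2 := 7 / 128) (a1 := 13 / 14) (c1 := 1 / 14)
    (cc := (3 / 8) * √56) (cd := 9) (lamu := 9 / 2) (lamv := 47 / 200)
    (lams := 4) (t1 := 99 / 500) (t1' := 3210 / 10000) (κ1 := 67 / 5)
    (t2 := 356 / 10000) (t2' := 49 / 500) (κ2 := 67 / 10) (Z := 1 / 50)
    (T0s := 15893 / 2025) (k0s := -(217327 / 32400)) (k1s := 115) (cS := 41)
    (l := Z15.lT) (Ro := RoT (√56) ll kapD Z15.sT)
    (R0 := R00 (√56) ll kapD) (c0 := √15) (ρ := rhoD) (κ := kapD) (γ := gamD)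
    (lu := 49 / 1000) (lv := 41 / 2000) (cs := 5479 / 2000) (ρ2 := 1044679973625 / 17592186044416)
    (κs := 0) (lus := 4237389351733 / 140737488355328)
    (b0 := 1) (b1 := 141836474562685 / 281474976710656) (b2' := -(822950990779441 / 281474976710656))
    (b3 := 30924745250083 / 17592186044416) (b4 := -(175978522084427 / 281474976710656)) (b5 := 58874994526613 / 281474976710656)
    (b6 := 0) (b7 := 50621151315039 / 140737488355328) (b8 := 0)
    (l2 := rlH 1101334057103371521333657600 R15s.rows)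
    (u0 := 127 / 1000000) (u1 := 208 / 1000000)
    (gs0 := 59 / 2000000 - 10223 / 100000 * (127 / 1000000) + 20913 / 100000 * (127 / 1000000) ^ 2)
    (gs1 := 59 / 2000000 - 10223 / 100000 * (208 / 1000000) + 20913 / 100000 * (208 / 1000000) ^ 2)
    (K := 77 / 100)
    (by norm_num) (by norm_num) hV hW hF hmin hng a_lt_two ?_ hΘ (by norm_num) (by positivity)
    (by rw [ha2]) hr0 (by push_cast; ring) ?_ (by push_cast; norm_num)
    (by push_cast; norm_num) (by push_cast; norm_num) ?_ (by push_cast; norm_num)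
    (by norm_num) (by norm_num) (by push_cast; norm_num) (by norm_num) (by push_cast; norm_num)
    ?_ (by norm_num) (by norm_num)
    (fun d x h h1 h0 hv hS => SO.F15.cls_T h h1 h0 hv hS)
    (fun d x h h1 h0 _ hc hS => SO.N15V.nearTg le_rfl le_rfl h h1 h0 hc le_rfl hS)
    (by push_cast; norm_num) (by norm_num) (by norm_num)
    (fun d x h h1 h0 hv hS => SO.G15a.cls_S h h1 h0 hv hS)
    (fun d x h h1 h0 _ hc hS => SO.NS15p115c41.nearSl le_rfl h h1 h0 hc le_rfl hS)
    Z15.reg_lT Z15.ok_lT Z15.w_lT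
    (fun N hN T hT => null_RoT hN _ _ _ _ ⟨hT.1.le, hT.2⟩)
    (fun N hN => null_R00 hN _ _ _) Z15.hposR_lT (by positivity) rho_pos
    kap_nonneg gam_pos ?_ ?_ ?_ ?_
    (Z15.flux_lT.trans flux_eq) ?_ (by norm_num) (by norm_num)
    (by push_cast; norm_num) (by push_cast; norm_num) R15s.rows_ok
    (fun e x N y w he hx hN hy hw hxN hyw hs => R15s.hpos_s e x N y w he hx hN hy hw hxN hyw hs)
    (by norm_num) (by norm_num)
    (fun Θ u r h1 h2 hu hT hr1 hr2 => R15s.hlaw_g (hlr Θ h1)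
      (h2.trans (a_le.trans (by norm_num))) (by norm_num) (by norm_num) hu hT hr1 hr2)
    (fun Θ u r h1 h2 hu hT hr1 hr2 => R15s.hlaw_g (hlr Θ h1)
      (h2.trans (a_le.trans (by norm_num))) (by norm_num) (by norm_num) hu hT hr1 hr2)
    (by norm_num)
    (fun N hN b S hS => SO.One15Z.one_dev hN (sp_of_hng hng) (by positivity) ha2 b S hS)
    num1 num2 num3 (by push_cast; norm_num) (by push_cast; norm_num) (by push_cast; norm_num)
    (by push_cast; norm_num) hle
  · linarith [a_ge]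
  · -- kr
    have h1 := sq_r
    field_simp
    linarith
  · -- g'
    rw [sq_r]
    push_cast
    norm_num
  · -- cc
    push_cast
    nlinarith [sq_r]
  · push_cast
    linarith [rhoD_bd.2]
  · linarith [rhoD_bd.2]
  · rw [sq_r]
    push_cast
    linarith [rhoD_bd.1]
  · intro x N y w hx hN hy hw hxN hyw
    exact Z15.h0_lT x N y w hx hN hy hw hxN hyw
  · -- cs
    have h1 : (748331 / 100000 : ℝ) ≤ √56 := Real.le_sqrt_of_sq_le (by norm_num)
    push_cast
    linarith

end

end Vale.Agent.P224.PO.M15
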