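import Vale.Agent.P224.PO.M15.Core
import Vale.Agent.P224.RIG.RangeG

/-!
The sharp bound in dimension fifteen with its case of equality.
-/

open MeasureTheory Set Filter Function Module Vale.Agent.P224
open scoped Topology RealInnerProductSpace ENNReal ContDiff Manifold

namespace Vale.Agent.P224.PO.M15

/-- **Dimension fifteen**: the sharp bound and its case of equality. -/
theorem iff {V W M : Type*}
    [NormedAddCommGroup V] [InnerProductSpace ℝ V] [FiniteDimensional ℝ V]
    [MeasurableSpace V] [BorelSpace V]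
    [NormedAddCommGroup W] [InnerProductSpace ℝ W] [FiniteDimensional ℝ W]
    [TopologicalSpace M] [T2Space M] [CompactSpace M] [ConnectedSpace M]
    [ChartedSpace V M] [IsManifold 𝓘(ℝ, V) ∞ M] [MeasurableSpace M] [BorelSpace M]
    (hV : finrank ℝ V = 15) (hW : finrank ℝ W = finrank ℝ V + 2)
    {F : M → W} (hF : SphImm V F)
    (hmin : ∀ x n, IsUnitNormal V F x n → meanCurv V F x n = 0)
    (hng : ¬ ∃ a : W, a ≠ 0 ∧ ∀ x, ⟪F x, a⟫ = 0) :
    ENNReal.ofReal (leastClifford 15) ≤ volM V F Set.univ ∧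
      (volM V F Set.univ = ENNReal.ofReal (leastClifford 15) ↔
        Function.Injective F ∧ ∃ U : Submodule ℝ W, finrank ℝ U = 15 / 2 + 1 ∧
          Set.range F = {z | ‖U.starProjection z‖ ^ 2 = ((15 / 2 : ℕ) : ℝ) / ((15 : ℕ) : ℝ) ∧
            ‖z - U.starProjection z‖ ^ 2 = ((15 - 15 / 2 : ℕ) : ℝ) / ((15 : ℕ) : ℝ)}) := by
  borelize W
  have ha : (0 : ℝ) < √56 / 8 := by positivity
  have ha2 : (√(56 : ℝ) / 8) ^ 2 * (((7 : ℕ) : ℝ) + 1) = ((7 : ℕ) : ℝ) := by
    rw [div_pow, sq_r]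
    norm_num
  exact RIG.iff_of_core' (m := 15) (h := 7) (by norm_num) (by norm_num) hV hW hF ha ha2
    least_eq (fun hle => core hV hW hF hmin hng hle)

end Vale.Agent.P224.PO.M15
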