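import Vale.Agent.P224.PO.LawO
import Vale.Agent.P224.PO.LawNumO

/-!
The numerical law of the certificate in dimension 15.
-/

namespace Vale.Agent.P224.PO.M15

open Vale.Agent.P224 Vale.Agent.P224.UE Vale.Agent.P224.POS Vale.Agent.P224.PO

lemma KH_9 : KH 9 = (65536 / 35) / Real.pi := by
  have := KH_rec (m := 7) (by norm_num)
  rw [KH_seven] at this
  norm_num at this
  rw [this]
  have := Real.pi_pos
  field_simp
  try norm_num

lemma KH_11 : KH 11 = (524288 / 63) / Real.pi := by
  have := KH_rec (m := 9) (by norm_num)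
  rw [KH_9] at this
  norm_num at this
  rw [this]
  have := Real.pi_pos
  field_simp
  try norm_num

lemma KH_13 : KH 13 = (8388608 / 231) / Real.pi := by
  have := KH_rec (m := 11) (by norm_num)
  rw [KH_11] at this
  norm_num at this
  rw [this]
  have := Real.pi_pos
  field_simp
  try norm_num

lemma KH_15 : KH 15 = (67108864 / 429) / Real.pi := by
  have := KH_rec (m := 13) (by norm_num)
  rw [KH_13] at this
  norm_num at this
  rw [this]
  have := Real.pi_pos
  field_simp
  try norm_num

/-- the ratio of the least Clifford volume in dimension 15 -/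
lemma clifford_le : leastClifford 15 ≤ 719 / 500 * sphereVol 15 :=
  odd_le (k := 7) (by norm_num) (by norm_num) (by norm_num)

/-- The numerical law in dimension 15. -/
theorem law_neg {Θ u r H : ℝ} (h1 : 6 / 5 ≤ Θ) (h2 : Θ ≤ 141643 / 100000) (hu : 0 ≤ u)
    (hT : Θ ^ 2 * u ≤ 1) (hr1 : u ^ 2 ≤ r) (hr2 : r ≤ u)
    (hH : H = -(30581 / 1073741824) + (408431 / 17179869184) * u + (34977 / 17179869184) * r) :
    Θ * (1 + (-(480716409 / 536870912)) * u + (-(9735461 / 134217728)) * r + (127886347 / 1073741824) * u ^ 2) + KH 15 * H < 0 := by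
  have hb := div_pi_bounds (N := 67108864 / 429) (by norm_num)
  have hK : KH 15 = (67108864 / 429) / Real.pi := by
    have h0 := KH_15
    have := Real.pi_pos
    rw [h0]
    try field_simp
  rw [← hK] at hb
  rw [hH]
  exact law_two (Tm := 141643 / 100000) hb.1 hb.2 (by norm_num) (by norm_num) (by norm_num) (by norm_num)
    (by norm_num) (by norm_num) (by norm_num)
    (fun T hT1 hT2 => quintic_neg (by norm_num) (by norm_num) (by norm_num) (by norm_num)
      (by norm_num) (by norm_num) (by norm_num) (le_of_eq rfl) (le_of_eq rfl) (le_of_eq rfl)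
      (le_of_eq rfl) (le_of_eq rfl) (le_of_eq rfl) hT1 hT2)
    (fun T hT1 hT2 => quintic_neg (by norm_num) (by norm_num) (by norm_num) (by norm_num)
      (by norm_num) (by norm_num) (by norm_num) (le_of_eq rfl) (le_of_eq rfl) (le_of_eq rfl)
      (le_of_eq rfl) (le_of_eq rfl) (le_of_eq rfl) hT1 hT2)
    (fun T hT1 hT2 => quintic_neg (by norm_num) (by norm_num) (by norm_num) (by norm_num)
      (by norm_num) (by norm_num) (by norm_num) (le_of_eq rfl) (le_of_eq rfl) (le_of_eq rfl)
      (le_of_eq rfl) (le_of_eq rfl) (le_of_eq rfl) hT1 hT2)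
    (fun T hT1 hT2 => quintic_neg (by norm_num) (by norm_num) (by norm_num) (by norm_num)
      (by norm_num) (by norm_num) (by norm_num) (le_of_eq rfl) (le_of_eq rfl) (le_of_eq rfl)
      (le_of_eq rfl) (le_of_eq rfl) (le_of_eq rfl) hT1 hT2)
    h1 h2 hu hT hr1 hr2

end Vale.Agent.P224.PO.M15
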